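import Vale.Agent.P283R.Lh.W
import Vale.Agent.P283R.Lf.On
import Vale.Agent.P283R.Uq.All3

/-!
# P283R: the quotients in the words of `Lh/W`
-/

open CategoryTheory AlgebraicGeometry

namespace Vale.Agent.P283R.Lh

open Sl Sl.Var Lz

/-- quotients of fibrations of low complexity, spherical, or with few Cox generators -/
theorem on_q2 (M : ℕ → ℕ) : OnN fun d _ _ f _ _ z => Quot (d := d) (fun _ _ g η w =>
    Cplx g η w ∨ ∃ V, w.In V ∧ (Ly.Sph (pre g V) ∨ Ly.Cox (M d) (pre g V))) f z :=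
  Uq.onm _ (fun d _ _ g η w =>
      Cplx g η w ∨ ∃ V, w.In V ∧ (Ly.Sph (pre g V) ∨ Ly.Cox (M d) (pre g V)))
    (((Uq.frd_m.or Uq.frd_s).or (Uq.frd_f M)).mono fun _ _ _ _ _ _ u =>
      u.elim (fun a => .inl (.inl a)) fun ⟨V, a, b⟩ =>
        b.imp (fun b => let ⟨N, c⟩ := b.old; .inr ⟨N, V, a, c⟩) fun b => b.old a)

/-- the old word is contained -/
theorem Quot.of {d : ℕ} {X Z : Var} {C : ∀ Y W : Var, (Y.X ⟶ W.X) → Y.Form d → Pt W.X → Prop}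
    {f : X.X ⟶ Z.X} {z : Pt Z.X} (h : Lf.Quot C f z) : Quot C f z :=
  let ⟨Y, W, π, g, κ, η, w, a, b, c, e, u⟩ := h
  ⟨Y, W, π, g, κ, η, w, a, b, c, (e w).2 rfl, u⟩

end Vale.Agent.P283R.Lh
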