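import Vale.Agent.P283R.Lh.Ws

/-!
# Bounded klt complements: chains of resolved towers
-/

open CategoryTheory AlgebraicGeometry

namespace Vale.Agent.P283R.Lh

open Sl Sl.Var Lf

/-- `g : X → Y` is a contraction, and there is a birational contraction `ρ : X' → X` such that
`X' → Y` is of Fano type and lies in `Steps J`, and for every exceptional prime divisor `E` of
`ρ`: `E` dominates `Y`, at the centre `x` of `E` the multiple `J! D` of every `ℚ`-Cartier Weil
divisor `D` is Cartier, `K_X` is `ℚ`-Cartier and the discrepancy of `E` is not positive. -/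
def Res (J : ℕ) {d : ℕ} {X Y : Var} (g : X.X ⟶ Y.X) (ω : X.Form d) : Prop :=
  Contr g X.str Y.str ∧ ∃ (X' : Var) (ρ : X'.X ⟶ X.X) (p : Iso X X') (η : X'.Form d),
    Contr ρ X'.str X.str ∧ IsPull ρ p ∧ η.Nonzero ∧ Fano (ρ ≫ g) η ∧ Steps J (ρ ≫ g) ∧
    ∀ (E : X'.PrimeDiv) (x : Pt X.X), E.1.map ρ = x → x.CodimOne ∨ x.map g = generic Y.X ∧
      (∀ (D : X.PrimeDiv → ℤ) m a, 0 < m → LocalEq (fun F => D F) m a x →
        ∃ b, LocalEq (fun F => D F) J.factorial b x) ∧
      ∃ m a, 0 < m ∧ LocalEq (logCan ω 0) m a x ∧ m * formOrd ω p E ≤ ord (p.app a) E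

/-- Compositions of at most `n + 1` morphisms of the class `Res J`. -/
inductive Floors (J : ℕ) : ℕ → ∀ {d : ℕ} {X Y : Var}, (X.X ⟶ Y.X) → X.Form d → Prop
  | one {n d : ℕ} {X Y : Var} {g : X.X ⟶ Y.X} {ω : X.Form d} : Res J g ω → Floors J n g ω
  | cons {n d e : ℕ} {X M Y : Var} {a : X.X ⟶ M.X} {h : M.X ⟶ Y.X} {ω : X.Form d}
      (θ : M.Form e) : dimension M.str = e → θ.Nonzero → Res J a ω → Floors J n h θ →
      Floors J (n + 1) (a ≫ h) ω

end Vale.Agent.P283R.Lh
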