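import Vale.Agent.P283R.Lh.Os
import Vale.Agent.P283R.Lh.Wn
import Vale.Agent.P283R.Lz.Oc

/-!
# P283R: chains of resolved towers over `Lh/Ws`
-/

open CategoryTheory AlgebraicGeometry

namespace Vale.Agent.P283R.Lh

open Sl Sl.Var
open Lz (Triv)

theorem R55.gs (J : ℕ → ℕ) : Rs.Gw fun d _ _ g _ => Steps (J d) g := fun d e q ε q0 e0 => by
  obtain ⟨q', M, ε', a1, a2, a3, H⟩ := Dn.tgn (J d) (d - e) (d - e) q ε q0 e0
  refine ⟨q', M, ε', a1, a2, a3, fun X Y g ω c => ?_⟩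
  obtain ⟨cg, -, k⟩ := Dn.stc _ X Y g c.old
  refine ⟨cg, fun W h p s hd he e1 b ft hp => ?_⟩
  obtain ⟨r, rfl, t⟩ := k W h d e ω p s hd he e1 b ft hp
  rw [Nat.add_sub_cancel_left] at H
  exact (@H Y.K X.K _ _ _ _ p.toAlgebra (@IsScalarTower.of_algebraMap_eq _ _ _ _ _ _ _ p.toAlgebra _
    fun a => (hp.cst cg.1 a).symm) e _ e1 t).2.2

theorem Res.old {J d : ℕ} {X Y : Var} {g : X.X ⟶ Y.X} {ω : X.Form d} (h : Res J g ω) :
    Resolved J (fun _ k => Steps J k) g ω :=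
  let ⟨a, X', ρ, p, η, b1, b2, b3, b4, b5, b6⟩ := h
  ⟨a, X', ρ, p, η, b1, b2, b3, b4, b5, fun E => b6 E _ rfl⟩

/-- the class contains the towers of Fano type -/
theorem Steps.res {J d : ℕ} {X Y : Var} {g : X.X ⟶ Y.X} {ω : X.Form d} (h : Steps J g)
    (b : ω.Nonzero) (f : Lf.Fano g ω) : Res J g ω :=
  ⟨h.old.ctr, X, 𝟙 _, RingEquiv.refl _, ω, Br.ctr_id (X := X.o),
    Br.pb_id (X := X.o), b, (Category.id_comp g).symm ▸ f, (Category.id_comp g).symm ▸ h,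
    fun E _ e => .inl (e ▸ E.2)⟩

theorem R55.gw (J : ℕ → ℕ) : Rs.Gw fun d _ _ g ω => Res (J d) g ω := fun d e q ε q0 ε0 =>
  let ⟨q', M, ε', a, b, c, H⟩ := Rs.rer55 Rs.gex15 Rs.exc14 J (fun d _ _ g => Steps (J d) g)
    (R55.gs J) d e q ε q0 ε0
  ⟨q', M, ε', a, b, c, fun X Y g ω h => H X Y g ω h.old⟩

/-- over a class -/
theorem res (J : ℕ → ℕ) {C : ∀ (d : ℕ) (X Z : Var), (X.X ⟶ Z.X) → X.Form d → Pt Z.X → Prop}
    (h : OnN fun d X Z f ω _ z => C d X Z f ω z) : OnN fun d Y W g η D w =>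
      ∃ (e : ℕ) (T : Var) (a : Y.X ⟶ T.X) (h : T.X ⟶ W.X) (θ : T.Form e),
        dimension T.str = e ∧ 1 ≤ e ∧ θ.Nonzero ∧ a ≫ h = g ∧ Res (J d) a η ∧ Triv a η D ∧
        C e T W h θ w := Rs.wra90 _ (R55.gw J) C h

/-- over a class of germs -/
theorem res_germ (J : ℕ → ℕ) {S : ℕ → ∀ Z : Var, Pt Z.X → Prop}
    (h : On fun d _ Z f ω B z => Crepant f ω B z ∧ S d Z z) : OnN fun d _ Z f ω B z =>
    ∃ e : ℕ, dimension Z.str = e ∧ 1 ≤ e ∧ Res (J d) f ω ∧ Triv f ω B ∧ S e Z z :=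
  (R55.gw J).germ90 h

theorem Floors.ctr {J n d : ℕ} {X Y : Var} {g : X.X ⟶ Y.X} {ω : X.Form d} (h : Floors J n g ω) :
    Contraction g := by
  induction h with
  | one a => exact a.1
  | cons _ _ _ a _ i => exact Contraction.comp a.1 i

theorem R55.cls (J n : ℕ) {C : ∀ (d : ℕ) (X Z : Var), (X.X ⟶ Z.X) → X.Form d → Pt Z.X → Prop}
    (h : OnN fun d X Z f ω _ z => C d X Z f ω z) : OnN fun _ Y W g η D w =>
      ∃ (e : ℕ) (T : Var) (a : Y.X ⟶ T.X) (h : T.X ⟶ W.X) (θ : T.Form e),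
        dimension T.str = e ∧ 1 ≤ e ∧ θ.Nonzero ∧ a ≫ h = g ∧ Floors J n a η ∧ Triv a η D ∧
        C e T W h θ w := by
  induction n with
  | zero =>
    refine (res (fun _ => J) h).mono fun _ _ _ _ _ _ _ ⟨e, T, a, k, θ, b1, b2, b3, b4, c, u⟩ => ?_
    cases c with
    | one c => exact ⟨e, T, a, k, θ, b1, b2, b3, b4, c, u⟩
  | succ n i =>
    refine ((res (fun _ => J) h).or (Lz.R55.step (R55.gw fun _ => J) i)).mono
      fun _ _ _ _ _ _ _ ⟨e, T, a, k, θ, b1, b2, b3, b4, c, t, u⟩ => ?_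
    cases c with
    | one c => exact .inl ⟨e, T, a, k, θ, b1, b2, b3, b4, c, t, u⟩
    | cons κ m κ0 r c =>
      exact .inr ⟨_, _, _, _ ≫ k, κ, m, b2.trans (c.ctr.dim_le m b1), κ0,
        (Category.assoc _ _ _).symm.trans b4, r, Lz.R55.up t,
        fun Δ s => ⟨e, T, _, k, θ, b1, b2, b3, rfl, c, s _ _ t, u⟩⟩

theorem R55.germ (J n : ℕ) {S : ℕ → ∀ Z : Var, Pt Z.X → Prop}
    (h : On fun d _ Z f ω B z => Crepant f ω B z ∧ S d Z z) : OnN fun _ _ Z f ω B z =>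
    ∃ e : ℕ, dimension Z.str = e ∧ 1 ≤ e ∧ Floors J n f ω ∧ Triv f ω B ∧ S e Z z := by
  induction n with
  | zero =>
    refine (res_germ (fun _ => J) h).mono fun _ _ _ _ _ _ _ ⟨e, b1, b2, c, u⟩ => ?_
    cases c with
    | one c => exact ⟨e, b1, b2, c, u⟩
  | succ n i =>
    refine ((res_germ (fun _ => J) h).or (Lz.R55.step (R55.gw fun _ => J) i)).mono
      fun _ _ Z _ _ _ _ ⟨e, b1, b2, c, t, u⟩ => ?_
    cases c with
    | one c => exact .inl ⟨e, b1, b2, c, t, u⟩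
    | cons κ m κ0 r c =>
      exact .inr ⟨_, _, _, _, κ, m, b2.trans (c.ctr.dim_le m b1), κ0, rfl, r,
        Lz.R55.up t, fun Δ s => ⟨e, b1, b2, c, s _ _ t, u⟩⟩

/-- chains over a class -/
theorem floors (J n : ℕ → ℕ)
    {C : ∀ (d : ℕ) (X Z : Var), (X.X ⟶ Z.X) → X.Form d → Pt Z.X → Prop}
    (h : OnN fun d X Z f ω _ z => C d X Z f ω z) : OnN fun d Y W g η D w =>
      ∃ (e : ℕ) (T : Var) (a : Y.X ⟶ T.X) (h : T.X ⟶ W.X) (θ : T.Form e),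
        dimension T.str = e ∧ 1 ≤ e ∧ θ.Nonzero ∧ a ≫ h = g ∧ Floors (J d) (n d) a η ∧
        Triv a η D ∧ C e T W h θ w := fun d => R55.cls (J d) (n d) h d

/-- chains over a class of germs -/
theorem floors_germ (J n : ℕ → ℕ) {S : ℕ → ∀ Z : Var, Pt Z.X → Prop}
    (h : On fun d _ Z f ω B z => Crepant f ω B z ∧ S d Z z) : OnN fun d _ Z f ω B z =>
    ∃ e : ℕ, dimension Z.str = e ∧ 1 ≤ e ∧ Floors (J d) (n d) f ω ∧ Triv f ω B ∧ S e Z z :=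
  fun d => R55.germ (J d) (n d) h d

end Vale.Agent.P283R.Lh
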