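import Vale.Agent.P283R.Lh.Ws
import Vale.Agent.P283R.Lh.On
import Vale.Agent.P283R.Eq.On5
import Vale.Agent.P283R.Dc.On69

/-!
# P283R: the towers of `Lh/Ws`
-/

open CategoryTheory AlgebraicGeometry

namespace Vale.Agent.P283R.Lh

open Sl Sl.Var Lz

theorem Steps.old {J : ℕ} {X Y : Var} {g : X.X ⟶ Y.X} (h : Steps J g) : Sl.Stages J g := by
  induction h with
  | one a b => exact .one a b
  | comp _ _ a b => exact .comp a b
  | small p a b c _ i => exact .small p a b c i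
  | cover b c e u v w _ i => exact .cover b c e u v w i

/-- the old word is contained -/
theorem Steps.of {J : ℕ} {X Y : Var} {g : X.X ⟶ Y.X} (h : Lf.Steps J g) : Steps J g := by
  induction h with
  | one a b => exact .one a b
  | comp _ _ a b => exact .comp a b
  | small p a b c _ i => exact .small p a b c i
  | etale b a c e f k l _ i => exact .cover b a e (.inl ⟨c, f⟩) k l i

/-- nested towers over a class -/
theorem nest (J : ℕ → ℕ) {C : ∀ (d : ℕ) (X Z : Var), (X.X ⟶ Z.X) → X.Form d → Pt Z.X → Prop}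
    (h : OnN fun d X Z f ω _ z => C d X Z f ω z) : OnN fun d Y W g η D w =>
      ∃ (e : ℕ) (T : Var) (a : Y.X ⟶ T.X) (h : T.X ⟶ W.X) (θ : T.Form e),
        dimension T.str = e ∧ 1 ≤ e ∧ θ.Nonzero ∧ a ≫ h = g ∧ Steps (J d) a ∧ Triv a η D ∧
        C e T W h θ w :=
  (h.stage J).mono fun _ _ _ _ _ _ _ ⟨e, T, a, h, θ, b1, b2, b3, b4, b5, b6⟩ =>
    ⟨e, T, a, h, θ, b1, b2, b3, b4, b5.old, b6⟩

theorem lifts (J : ℕ → ℕ) : Lifts fun d _ _ g => Steps (J d) g := fun _ h =>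
  (onN_stage J h).mono fun _ _ _ _ _ _ _ ⟨e, a, b, c, t⟩ => ⟨e, a, b, c.old, t⟩

/-- quotients of points of bounded embedding dimension -/
theorem emb (J M : ℕ → ℕ) : OnN fun d _ W g η D w =>
    ∃ e : ℕ, dimension W.str = e ∧ 1 ≤ e ∧ Steps (J d) g ∧ Triv g η D ∧
      ∃ (S : Var) (π : S.X ⟶ W.X), FinQuot π ∧ EmbDim (M e) π w ∧
        (Index (M e) π w ∨ e = d ∧ ∃ (C : _) (θ : S.Form e) (Δ : S.QDiv), Same g D.coeff C ∧
          Same π Δ.coeff C ∧ θ.Nonzero ∧ ∀ x : Pt S.X, x.map π = w →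
            ∃ m a, 0 < m ∧ m ≤ M e ∧ LocalEq (logCan θ Δ) m a x) :=
  ((lifts J).embX M).mono
    fun _ _ _ _ _ _ _ ⟨e, a, b, c, t, S, π, u, v⟩ => ⟨e, a, b, c, t, S, π, u, .inl v⟩

end Vale.Agent.P283R.Lh
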